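import Vale.Agent.P117.AN577.Geo

/-! # P117 / F837 : the Katz-Tao condition on planks gives the weighted one -/

open MeasureTheory Complex Set
open scoped ENNReal NNReal ContDiff FourierTransform

set_option linter.all false

namespace Vale.Agent.P117.F837

open Vale.Agent.P122.C2 (Z2 fw fn)
open Vale.Agent.P122.AN (hz dv wg gau)
open Vale.Agent.P117.K (E3 grd sl1 sl2 KTd Plk dirP)

/-- the one dimensional weight -/
noncomputable def w43 (m : ℤ) : ℝ≥0∞ := ENNReal.ofReal ((1 + |(m:ℝ)|) ^ (-(4/3 : ℝ)))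

theorem w43_sum : ∑' m : ℤ, w43 m ≠ ⊤ := by
  have h : Summable (fun m : ℤ => (1 + |(m:ℝ)|) ^ (-(4/3 : ℝ))) := by
    have h1 : Summable (fun m : ℤ => |(m:ℝ)| ^ (-(4/3 : ℝ))) := Real.summable_abs_int_rpow (by norm_num)
    refine Summable.of_norm_bounded_eventually h1 ?_
    rw [Filter.eventually_cofinite]
    refine (Set.finite_singleton (0:ℤ)).subset ?_
    intro m hm
    simp only [Set.mem_setOf_eq, not_le] at hm
    by_contra hne
    have hne : m ≠ 0 := hne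
    have hpos : 0 < |(m:ℝ)| := abs_pos.2 (by exact_mod_cast hne)
    refine absurd hm (not_lt.2 ?_)
    rw [Real.norm_of_nonneg (by positivity)]
    exact Real.rpow_le_rpow_of_nonpos hpos (by linarith) (by norm_num)
  have := h.tsum_ofReal_ne_top
  exact this

theorem w43_sum3 : ∃ C : ℝ, 0 ≤ C ∧ ∑' m : ℤ × ℤ × ℤ, w43 m.1 * (w43 m.2.1 * w43 m.2.2) ≤ ENNReal.ofReal C := by
  have h := w43_sum
  refine ⟨(∑' m : ℤ, w43 m).toReal * ((∑' m : ℤ, w43 m).toReal * (∑' m : ℤ, w43 m).toReal), by positivity, ?_⟩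
  rw [ENNReal.tsum_prod', ENNReal.ofReal_mul (by positivity), ENNReal.ofReal_mul (by positivity), ENNReal.ofReal_toReal h]
  refine le_of_eq ?_
  rw [← ENNReal.tsum_mul_right]
  refine tsum_congr fun a => ?_
  simp only
  rw [ENNReal.tsum_mul_left, ENNReal.tsum_prod']
  congr 1
  rw [← ENNReal.tsum_mul_right]
  refine tsum_congr fun b => ?_
  simp only
  rw [ENNReal.tsum_mul_left]

/-- the centre of the plank `m` -/
noncomputable def ctr (θ w1 w2 R : ℝ) (s : Fin 2 → ℝ) (p : E3) (m : ℤ × ℤ × ℤ) : E3 :=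
  !₂[p 0 + s 0 * (m.2.2 * R) + (Real.cos θ * (m.1 * w2) - Real.sin θ * (m.2.1 * w1)),
     p 1 + s 1 * (m.2.2 * R) + (Real.sin θ * (m.1 * w2) + Real.cos θ * (m.2.1 * w1)),
     p 2 + m.2.2 * R]

theorem mem_plk_ctr {θ w1 w2 R : ℝ} {s : Fin 2 → ℝ} {p z : E3} {m : ℤ × ℤ × ℤ} :
    z ∈ Plk R (-Real.sin θ) (Real.cos θ) (s 0) (s 1) w1 w2 (ctr θ w1 w2 R s p m) ↔
      |fn θ (dv s (z - p)) - m.2.1 * w1| ≤ w1 ∧ |fw θ (dv s (z - p)) - m.1 * w2| ≤ w2 ∧ |(z - p) 2 - m.2.2 * R| ≤ R := by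
  have hsc := Real.sin_sq_add_cos_sq θ
  have e1 : -Real.sin θ * (z 0 - (ctr θ w1 w2 R s p m) 0 - s 0 * (z 2 - (ctr θ w1 w2 R s p m) 2)) +
      Real.cos θ * (z 1 - (ctr θ w1 w2 R s p m) 1 - s 1 * (z 2 - (ctr θ w1 w2 R s p m) 2)) =
      fn θ (dv s (z - p)) - m.2.1 * w1 := by
    simp [ctr, fn, dv]
    linear_combination (-(m.2.1 * w1 : ℝ)) * hsc
  have e2 : -Real.cos θ * (z 0 - (ctr θ w1 w2 R s p m) 0 - s 0 * (z 2 - (ctr θ w1 w2 R s p m) 2)) +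
      -Real.sin θ * (z 1 - (ctr θ w1 w2 R s p m) 1 - s 1 * (z 2 - (ctr θ w1 w2 R s p m) 2)) =
      -(fw θ (dv s (z - p)) - m.1 * w2) := by
    simp [ctr, fw, dv]
    linear_combination ((m.1 * w2 : ℝ)) * hsc
  have e3 : z 2 - (ctr θ w1 w2 R s p m) 2 = (z - p) 2 - m.2.2 * R := by
    simp [ctr]; ring
  simp only [Plk, Set.mem_setOf_eq]
  rw [e1, e2, e3, abs_neg]

theorem meas_plk {R a b s1 s2 w1 w2 : ℝ} {p : E3} : MeasurableSet (Plk R a b s1 s2 w1 w2 p) := by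
  have h1 : IsClosed {z : E3 | |a * (z 0 - p 0 - s1 * (z 2 - p 2)) + b * (z 1 - p 1 - s2 * (z 2 - p 2))| ≤ w1} :=
    isClosed_le (by fun_prop) continuous_const
  have h2 : IsClosed {z : E3 | |-b * (z 0 - p 0 - s1 * (z 2 - p 2)) + a * (z 1 - p 1 - s2 * (z 2 - p 2))| ≤ w2} :=
    isClosed_le (by fun_prop) continuous_const
  have h3 : IsClosed {z : E3 | |z 2 - p 2| ≤ R} := isClosed_le (by fun_prop) continuous_const
  exact (h1.inter (h2.inter h3)).measurableSet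

/-- rounding -/
theorem rnd (x w : ℝ) (hw : 0 < w) : |x - round (x / w) * w| ≤ w ∧ |((round (x / w) : ℤ) : ℝ)| ≤ 2 * (|x| / w) := by
  have h := abs_sub_round (x / w)
  constructor
  · have : x - round (x / w) * w = (x / w - round (x / w)) * w := by field_simp
    rw [this, abs_mul, abs_of_pos hw]
    nlinarith
  · have h1 : |x| / w = |x / w| := by rw [abs_div, abs_of_pos hw]
    rw [h1]
    set y := x / w
    by_cases h0 : round y = 0
    · rw [h0]; simp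
    · have h2 : (1:ℝ) ≤ |((round y : ℤ) : ℝ)| := by
        have := Int.one_le_abs h0
        exact_mod_cast this
      have h3 : |((round y : ℤ) : ℝ)| ≤ |y| + |y - round y| := by
        have := abs_sub y (y - round y)
        simpa using this
      linarith

theorem w43_ofReal {M : ℕ} (hM : 4 ≤ M) {g : ℝ} {m : ℤ × ℤ × ℤ} (h : |(m.1:ℝ)| + |(m.2.1:ℝ)| + |(m.2.2:ℝ)| ≤ 2 * g) :
    ENNReal.ofReal (((1 + g) ^ M)⁻¹) ≤ ENNReal.ofReal (2 ^ 4) * (w43 m.1 * (w43 m.2.1 * w43 m.2.2)) := by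
  have h0 := abs_nonneg (m.1:ℝ)
  have h1 := abs_nonneg (m.2.1:ℝ)
  have h2 := abs_nonneg (m.2.2:ℝ)
  have hg : 0 ≤ g := by linarith
  rw [w43, w43, w43, ← ENNReal.ofReal_mul (by positivity), ← ENNReal.ofReal_mul (by positivity),
    ← ENNReal.ofReal_mul (by positivity)]
  apply ENNReal.ofReal_le_ofReal
  set T := 1 + |(m.1:ℝ)| + |(m.2.1:ℝ)| + |(m.2.2:ℝ)| with hT
  have hT1 : 1 ≤ T := by linarith
  have hTg : T ≤ 2 * (1 + g) := by linarith
  have key : ∀ a : ℝ, 0 ≤ a → 1 + a ≤ T → T ^ (-(4/3:ℝ)) ≤ (1 + a) ^ (-(4/3:ℝ)) := fun a ha h =>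
    Real.rpow_le_rpow_of_nonpos (by linarith) h (by norm_num)
  have k0 := key _ h0 (by linarith)
  have k1 := key _ h1 (by linarith)
  have k2 := key _ h2 (by linarith)
  have hTp : 0 ≤ T ^ (-(4/3:ℝ)) := by positivity
  have e : T ^ (-(4/3:ℝ)) * (T ^ (-(4/3:ℝ)) * T ^ (-(4/3:ℝ))) = (T ^ 4)⁻¹ := by
    rw [← Real.rpow_add (by linarith), ← Real.rpow_add (by linarith), ← Real.rpow_natCast, ← Real.rpow_neg (by linarith)]
    norm_num
  calc ((1 + g) ^ M)⁻¹ ≤ ((1 + g) ^ 4)⁻¹ := by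
        apply inv_anti₀ (by positivity)
        exact pow_le_pow_right₀ (by linarith) hM
    _ = 2 ^ 4 * ((2 * (1 + g)) ^ 4)⁻¹ := by
        rw [mul_pow, mul_inv]; ring
    _ ≤ 2 ^ 4 * (T ^ 4)⁻¹ := by
        gcongr
    _ = 2 ^ 4 * (T ^ (-(4/3:ℝ)) * (T ^ (-(4/3:ℝ)) * T ^ (-(4/3:ℝ)))) := by rw [e]
    _ ≤ _ := by
        gcongr

/-- the weight of a plank is at most a summable combination of the indicators of its translates -/
theorem wg_le {M : ℕ} (hM : 4 ≤ M) {θ u1 u2 R : ℝ} (hR : 0 < R) (hu1 : 0 < u1) (hu2 : 0 < u2) (s : Fin 2 → ℝ) (p z : E3) :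
    wg M θ (u2 * R) (u1 * R) R s (z - p) ≤ ∑' m : ℤ × ℤ × ℤ, ENNReal.ofReal (2 ^ 4) * (w43 m.1 * (w43 m.2.1 * w43 m.2.2)) *
      (Plk R (-Real.sin θ) (Real.cos θ) (s 0) (s 1) (3 * u1 * R) (3 * u2 * R) (ctr θ (3 * u1 * R) (3 * u2 * R) R s p m)).indicator
        (fun _ => 1) z := by
  have hw1 : 0 < 3 * u1 * R := by positivity
  have hw2 : 0 < 3 * u2 * R := by positivity
  obtain ⟨a1, a2⟩ := rnd (fw θ (dv s (z - p))) (3 * u2 * R) hw2
  obtain ⟨b1, b2⟩ := rnd (fn θ (dv s (z - p))) (3 * u1 * R) hw1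
  obtain ⟨c1, c2⟩ := rnd ((z - p) 2) R hR
  set m0 := round (fw θ (dv s (z - p)) / (3 * u2 * R))
  set m1 := round (fn θ (dv s (z - p)) / (3 * u1 * R))
  set m2 := round ((z - p) 2 / R)
  refine le_trans ?_ (ENNReal.le_tsum (m0, m1, m2))
  have hz : z ∈ Plk R (-Real.sin θ) (Real.cos θ) (s 0) (s 1) (3 * u1 * R) (3 * u2 * R)
      (ctr θ (3 * u1 * R) (3 * u2 * R) R s p (m0, m1, m2)) := mem_plk_ctr.2 ⟨b1, a1, c1⟩
  rw [Set.indicator_of_mem hz, mul_one, wg]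
  refine w43_ofReal hM ?_
  have e1 : |fw θ (dv s (z - p))| / (3 * u2 * R) ≤ |fw θ (dv s (z - p))| / (u2 * R) := by
    apply div_le_div_of_nonneg_left (abs_nonneg _) (by positivity)
    nlinarith [mul_pos hu2 hR]
  have e2 : |fn θ (dv s (z - p))| / (3 * u1 * R) ≤ |fn θ (dv s (z - p))| / (u1 * R) := by
    apply div_le_div_of_nonneg_left (abs_nonneg _) (by positivity)
    nlinarith [mul_pos hu1 hR]
  rw [gau]
  simp only
  linarith

theorem ktd_wg : ∀ M : ℕ, 4 ≤ M → ∃ C : ℝ, 0 ≤ C ∧ ∀ (N : ℕ) (A : ℝ) (ν : ℤ × ℤ → E3 → ℝ≥0∞), 1 ≤ N → 0 ≤ A →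
    (∀ k, Measurable (ν k)) → KTd N A ν → ∀ (θ u1 u2 : ℝ) (s : Fin 2 → ℝ) (p : E3) (KK : Finset (ℤ × ℤ)), KK ⊆ grd N →
    (N:ℝ)⁻¹ ≤ u1 → u1 ≤ u2 →
    (∀ k ∈ KK, |fw θ (fun i => ![sl1 N k, sl2 N k] i - s i)| ≤ 3 * u2 ∧
      |fn θ (fun i => ![sl1 N k, sl2 N k] i - s i)| ≤ 3 * u1) →
    ∑ k ∈ KK, ∫⁻ z, ν k z * wg M θ (u2 * (N:ℝ) ^ 2) (u1 * (N:ℝ) ^ 2) ((N:ℝ) ^ 2) s (z - p) ≤
      ENNReal.ofReal (C * A * (u1 * u2 * (N:ℝ) ^ 6)) := by
  intro M hM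
  obtain ⟨S, hS0, hS⟩ := w43_sum3
  refine ⟨2 ^ 4 * S * 9, by positivity, ?_⟩
  intro N A ν hN hA hν hK θ u1 u2 s p KK hKK hu1 hu12 hsl
  have hNR : (1:ℝ) ≤ N := by exact_mod_cast hN
  have hN0 : (0:ℝ) < N := by linarith
  have hu1p : 0 < u1 := lt_of_lt_of_le (by positivity) hu1
  have hu2p : 0 < u2 := lt_of_lt_of_le hu1p hu12
  set R : ℝ := (N:ℝ) ^ 2 with hRdef
  have hR : 0 < R := by positivity
  set P : ℤ × ℤ × ℤ → Set E3 := fun m =>
    Plk R (-Real.sin θ) (Real.cos θ) (s 0) (s 1) (3 * u1 * R) (3 * u2 * R) (ctr θ (3 * u1 * R) (3 * u2 * R) R s p m) with hP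
  set c : ℤ × ℤ × ℤ → ℝ≥0∞ := fun m => ENNReal.ofReal (2 ^ 4) * (w43 m.1 * (w43 m.2.1 * w43 m.2.2)) with hc
  have hw1 : (N:ℝ) ≤ 3 * u1 * R := by
    have : 1 ≤ N * u1 := by
      have := mul_le_mul_of_nonneg_left hu1 hN0.le
      rwa [mul_inv_cancel₀ hN0.ne'] at this
    rw [hRdef]
    nlinarith
  have hw12 : 3 * u1 * R ≤ 3 * u2 * R := by gcongr
  -- one term
  have h1 : ∀ k, ∫⁻ z, ν k z * wg M θ (u2 * R) (u1 * R) R s (z - p) ≤ ∑' m, c m * ∫⁻ z in P m, ν k z := by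
    intro k
    calc ∫⁻ z, ν k z * wg M θ (u2 * R) (u1 * R) R s (z - p)
        ≤ ∫⁻ z, ∑' m, c m * (P m).indicator (ν k) z := by
          apply lintegral_mono
          intro z
          refine le_trans (mul_le_mul_right (wg_le hM hR hu1p hu2p s p z) _) ?_
          rw [← ENNReal.tsum_mul_left]
          refine ENNReal.tsum_le_tsum fun m => ?_
          simp only [hc, hP]
          by_cases hz : z ∈ Plk R (-Real.sin θ) (Real.cos θ) (s 0) (s 1) (3 * u1 * R) (3 * u2 * R)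
              (ctr θ (3 * u1 * R) (3 * u2 * R) R s p m)
          · rw [Set.indicator_of_mem hz, Set.indicator_of_mem hz]
            apply le_of_eq; ring
          · rw [Set.indicator_of_notMem hz, Set.indicator_of_notMem hz]
            simp
      _ = ∑' m, c m * ∫⁻ z in P m, ν k z := by
          rw [lintegral_tsum]
          · congr 1; ext m
            rw [lintegral_const_mul _ ((hν k).indicator meas_plk), lintegral_indicator meas_plk]
          · intro m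
            exact (((hν k).indicator meas_plk).const_mul _).aemeasurable
  -- one plank
  have h2 : ∀ m, ∑ k ∈ KK, ∫⁻ z in P m, ν k z ≤ ENNReal.ofReal (A * ((3 * u1 * R) * (3 * u2 * R) * (N:ℝ) ^ 2)) := by
    intro m
    classical
    refine le_trans ?_ (hK (-Real.sin θ) (Real.cos θ) (s 0) (s 1) (3 * u1 * R) (3 * u2 * R)
      (ctr θ (3 * u1 * R) (3 * u2 * R) R s p m) (by rw [neg_sq]; exact Real.sin_sq_add_cos_sq θ) hw1 hw12)
    refine Finset.sum_le_sum_of_subset ?_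
    intro k hk
    rw [Finset.mem_filter]
    refine ⟨hKK hk, ?_⟩
    obtain ⟨q1, q2⟩ := hsl k hk
    rw [fw] at q1
    rw [fn] at q2
    simp only [Matrix.cons_val_zero, Matrix.cons_val_one] at q1 q2
    refine ⟨?_, ?_⟩
    · rw [← hRdef, mul_div_assoc, div_self hR.ne', mul_one]
      exact q2
    · rw [← hRdef, mul_div_assoc, div_self hR.ne', mul_one, ← abs_neg]
      refine le_trans (le_of_eq ?_) q1
      congr 1; ring
  calc ∑ k ∈ KK, ∫⁻ z, ν k z * wg M θ (u2 * R) (u1 * R) R s (z - p)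
      ≤ ∑ k ∈ KK, ∑' m, c m * ∫⁻ z in P m, ν k z := Finset.sum_le_sum fun k _ => h1 k
    _ = ∑' m, c m * ∑ k ∈ KK, ∫⁻ z in P m, ν k z := by
        rw [← Summable.tsum_finsetSum (fun i _ => ENNReal.summable)]
        congr 1; ext m
        rw [Finset.mul_sum]
    _ ≤ ∑' m, c m * ENNReal.ofReal (A * ((3 * u1 * R) * (3 * u2 * R) * (N:ℝ) ^ 2)) :=
        ENNReal.tsum_le_tsum fun m => mul_le_mul_right (h2 m) _
    _ = ENNReal.ofReal (2 ^ 4) * (∑' m : ℤ × ℤ × ℤ, w43 m.1 * (w43 m.2.1 * w43 m.2.2)) *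
          ENNReal.ofReal (A * ((3 * u1 * R) * (3 * u2 * R) * (N:ℝ) ^ 2)) := by
        rw [ENNReal.tsum_mul_right, hc, ENNReal.tsum_mul_left]
    _ ≤ ENNReal.ofReal (2 ^ 4) * ENNReal.ofReal S * ENNReal.ofReal (A * ((3 * u1 * R) * (3 * u2 * R) * (N:ℝ) ^ 2)) := by
        gcongr
    _ = ENNReal.ofReal (2 ^ 4 * S * 9 * A * (u1 * u2 * (N:ℝ) ^ 6)) := by
        rw [← ENNReal.ofReal_mul (by positivity), ← ENNReal.ofReal_mul (by positivity)]
        congr 1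
        rw [hRdef]; ring

end Vale.Agent.P117.F837
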