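import Vale.Agent.P117.K.DefsM

/-! # P117 / F837 : the multiscale estimate (E) at exponent three, in the language of `K/Defs` (helper837)

`StE3` : if the tube averages of `g` satisfy the weighted Katz-Tao condition with constant `A`, then
`∫ |𝓕⁻ g|³ ≤ C N^ε A^(1/2) ∫ |g|²`. The estimate is homogeneous in `g`. -/

open MeasureTheory Complex Set
open scoped ENNReal NNReal ContDiff FourierTransform SchwartzMap

set_option linter.all false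

namespace Vale.Agent.P117.F837

open Vale.Agent.P117.K

/-- [E3] the estimate at exponent three for Katz-Tao densities (for arbitrarily large `M`) -/
def StE3 : Prop := ∀ (ε : ℝ) (M0 : ℕ), 0 < ε → ∃ (M K0 : ℕ) (c1 C : ℝ), M0 ≤ M ∧ 2 ≤ K0 ∧ 0 < c1 ∧ 0 ≤ C ∧
  ∀ (n : ℕ) (o1 o2 A : ℝ) (g : E3 → ℂ), 2 ≤ n → o1 ∈ Icc (0:ℝ) (1/2) → o2 ∈ Icc (0:ℝ) (1/2) → Ams c1 (K0 ^ n) o1 o2 g →
    1 ≤ A → KTd (K0 ^ n) A (den M (K0 ^ n) o1 o2 g) →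
    ∫⁻ x, ‖𝓕⁻ g x‖ₑ ^ 3 ≤ ENNReal.ofReal (C * ((K0:ℝ) ^ n) ^ ε * A ^ (1/2 : ℝ)) * ∫⁻ ξ, ‖g ξ‖ₑ ^ 2

/-- the full range of exponents -/
def StFull : Prop := ∀ (p : ℝ≥0∞) (δ : ℝ), 1 ≤ p → max (3 * |1 / p.toReal - 1 / 2| - 1 / 2) 0 < δ → BRbdd δ p

end Vale.Agent.P117.F837
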