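import Vale.Agent.P117.F837.Lat
import Vale.Agent.P117.AN577.Defs
import Vale.Agent.P117.Bdl.B2

/-! # P117 / F837 : [A4] from the estimate on one cube to the estimate on the whole space -/

open MeasureTheory Complex Set
open scoped ENNReal NNReal FourierTransform

set_option linter.all false

namespace Vale.Agent.P117.F837

open Vale.Agent.P122.C2 (Z2)
open Vale.Agent.P122.AN (hz wg Srf Dat pie desc slp KTw enw StE)
open Vale.Agent.P117.AN577 (StEG StLoc)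

abbrev V3 := EuclideanSpace ℝ (Fin 3)

/-- modulation -/
noncomputable def md (x0 : V3) (g : V3 → ℂ) (ξ : V3) : ℂ := Real.fourierChar (inner ℝ ξ x0) • g ξ

theorem norm_md (x0 : V3) (g : V3 → ℂ) (ξ : V3) : ‖md x0 g ξ‖ = ‖g ξ‖ := by
  unfold md; rw [Circle.norm_smul]

theorem md_ne {x0 : V3} {g : V3 → ℂ} {ξ : V3} (h : md x0 g ξ ≠ 0) : g ξ ≠ 0 := by
  intro h0
  apply h
  unfold md
  rw [h0, smul_zero]

theorem md_int {x0 : V3} {g : V3 → ℂ} (h : Integrable g) : Integrable (md x0 g) := by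
  have hc : Continuous fun v : V3 => Real.fourierChar (inner ℝ v x0) :=
    Real.continuous_fourierChar.comp (continuous_id.inner continuous_const)
  have hm : AEStronglyMeasurable (md x0 g) volume :=
    (hc.aestronglyMeasurable (μ := volume)).smul h.aestronglyMeasurable
  exact h.mono hm (Filter.Eventually.of_forall fun ξ => (norm_md x0 g ξ).le)

theorem inv_md (x0 : V3) (g : V3 → ℂ) (z : V3) : 𝓕⁻ (md x0 g) z = 𝓕⁻ g (z + x0) := by
  rw [Real.fourierInv_eq, Real.fourierInv_eq]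
  congr 1
  ext v
  unfold md
  rw [inner_add_right, AddChar.map_add_eq_mul, mul_smul]

theorem pie_md (K n : ℕ) (g : Z2 → V3 → ℂ) (i : ℕ) (τ : Z2) (x0 z : V3) :
    pie K n (fun θ => md x0 (g θ)) i τ z = pie K n g i τ (z + x0) := by
  unfold pie
  exact Finset.sum_congr rfl fun θ _ => inv_md x0 (g θ) z

theorem dat_md {C : ℝ} {K n : ℕ} {Q : Set (Fin 2 → ℝ)} {h : (Fin 2 → ℝ) → ℝ} {v : (Fin 2 → ℝ) → Fin 2 → ℝ}
    {g : Z2 → V3 → ℂ} (hD : Dat C K n Q h v g) (x0 : V3) : Dat C K n Q h v (fun θ => md x0 (g θ)) where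
  int := fun θ => md_int (hD.int θ)
  cell := fun θ ξ hξ => hD.cell θ ξ (md_ne hξ)
  dom := fun θ ξ hξ => hD.dom θ ξ (md_ne hξ)
  slope := fun θ ξ hξ => hD.slope θ ξ (md_ne hξ)
  near := fun θ ξ hξ => hD.near θ ξ (md_ne hξ)

theorem ktw_md {M K n : ℕ} {g : Z2 → V3 → ℂ} {Λ : ℝ} (h : KTw M K n g Λ) (x0 : V3) :
    KTw M K n (fun θ => md x0 (g θ)) Λ := by
  intro θ u1 u2 s p U h1 h2 h3 h4
  refine le_trans (le_of_eq ?_) (h θ u1 u2 s (p + x0) U h1 h2 h3 h4)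
  refine Finset.sum_congr rfl fun τ _ => ?_
  rw [← lintegral_add_right_eq_self (fun z => ‖𝓕⁻ (g τ) z‖ₑ ^ 2 * wg M θ (u2 * 2 ^ (2 * K * n)) (u1 * 2 ^ (2 * K * n))
    (2 ^ (2 * K * n)) s (z - (p + x0))) x0]
  refine lintegral_congr fun z => ?_
  rw [inv_md]
  congr 2
  abel

theorem enw_md (M K n : ℕ) (g : Z2 → V3 → ℂ) (x0 : V3) : enw M K n (fun θ => md x0 (g θ)) =
    ∑ θ ∈ desc K n 0 0, ∫⁻ z, ‖𝓕⁻ (g θ) z‖ₑ ^ 2 * ENNReal.ofReal (((1 + ‖z - x0‖ / 2 ^ (2 * K * n)) ^ M)⁻¹) := by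
  unfold enw
  refine Finset.sum_congr rfl fun θ _ => ?_
  rw [← lintegral_add_right_eq_self (fun z => ‖𝓕⁻ (g θ) z‖ₑ ^ 2 *
    ENNReal.ofReal (((1 + ‖z - x0‖ / 2 ^ (2 * K * n)) ^ M)⁻¹)) x0]
  refine lintegral_congr fun z => ?_
  rw [inv_md, add_sub_cancel_right]

/-- Plancherel, without measurability -/
theorem planch_le {g : V3 → ℂ} (hg : Integrable g) : ∫⁻ z, ‖𝓕⁻ g z‖ₑ ^ 2 ≤ ∫⁻ ξ, ‖g ξ‖ₑ ^ 2 := by
  obtain ⟨g', hm, hgg⟩ := hg.aestronglyMeasurable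
  have hgm : Measurable g' := hm.measurable
  have hgi : Integrable g' := hg.congr hgg
  have e1 : (𝓕⁻ g : V3 → ℂ) = 𝓕⁻ g' := by
    ext z
    rw [Real.fourierInv_eq, Real.fourierInv_eq]
    apply integral_congr_ae
    filter_upwards [hgg] with v hv
    rw [hv]
  have e2 : ∫⁻ ξ, ‖g ξ‖ₑ ^ 2 = ∫⁻ ξ, ‖g' ξ‖ₑ ^ 2 := by
    apply lintegral_congr_ae
    filter_upwards [hgg] with v hv
    rw [hv]
  rw [e1, e2]
  have h2 := Vale.Agent.P117.lintegral_sq_fourier_le (hgi.comp_neg) (hgm.comp measurable_neg)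
  rw [← Real.fourierInv_eq_fourier_comp_neg] at h2
  refine h2.trans (le_of_eq ?_)
  exact lintegral_neg_eq_self (fun x => ‖g' x‖ₑ ^ 2)

/-- **[A4]** -/
theorem stLoc : StLoc := by
  intro hE ε hε
  obtain ⟨K, hK, h1⟩ := hE ε hε
  refine ⟨K, hK, fun C0 hC0 => ?_⟩
  obtain ⟨C, hC, h2⟩ := h1 6 C0 hC0
  obtain ⟨C3, hC3, h3⟩ := sum3
  refine ⟨6, C * C3, le_rfl, by positivity, ?_⟩
  intro n Q h v g Λ hS hD hL hΛ hKT
  set R : ℝ := 2 ^ (2 * K * n) with hR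
  have hR0 : 0 < R := by positivity
  set B : ℝ := C * 2 ^ (ε * (K * n)) * Real.sqrt Λ with hB
  have hB0 : 0 ≤ B := by positivity
  have hcont : ∀ θ, Continuous (𝓕⁻ (g θ)) := fun θ => Vale.Agent.P117.continuous_fourierInv (hD.int θ)
  calc ∫⁻ z, ‖pie K n g 0 0 z‖ₑ ^ 3
      ≤ ∑' m : ℤ × ℤ × ℤ, ∫⁻ z in {z : V3 | ∀ i, |z i| ≤ R}, ‖pie K n g 0 0 (z + xm R m)‖ₑ ^ 3 :=
        cover3 hR0 (fun z => ‖pie K n g 0 0 z‖ₑ ^ 3)
    _ ≤ ∑' m : ℤ × ℤ × ℤ, ENNReal.ofReal B * enw 6 K n (fun θ => md (xm R m) (g θ)) := by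
        refine ENNReal.tsum_le_tsum fun m => ?_
        have h4 := h2 n Q h v (fun θ => md (xm R m) (g θ)) Λ hS (dat_md hD _) hΛ (ktw_md hKT _)
        simp only [pie_md] at h4
        exact h4
    _ = ENNReal.ofReal B * ∑ θ ∈ desc K n 0 0, ∑' m : ℤ × ℤ × ℤ, ∫⁻ z, ‖𝓕⁻ (g θ) z‖ₑ ^ 2 *
          ENNReal.ofReal (((1 + ‖z - xm R m‖ / R) ^ 6)⁻¹) := by
        rw [ENNReal.tsum_mul_left]
        congr 1
        simp only [enw_md]
        exact Summable.tsum_finsetSum (fun _ _ => ENNReal.summable)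
    _ ≤ ENNReal.ofReal B * ∑ θ ∈ desc K n 0 0, ENNReal.ofReal C3 * ∫⁻ ξ, ‖g θ ξ‖ₑ ^ 2 := by
        gcongr with θ _
        rw [← lintegral_tsum]
        · calc ∫⁻ z, ∑' m : ℤ × ℤ × ℤ, ‖𝓕⁻ (g θ) z‖ₑ ^ 2 * ENNReal.ofReal (((1 + ‖z - xm R m‖ / R) ^ 6)⁻¹)
              ≤ ∫⁻ z, ENNReal.ofReal C3 * ‖𝓕⁻ (g θ) z‖ₑ ^ 2 := by
                refine lintegral_mono fun z => ?_
                simp only
                rw [ENNReal.tsum_mul_left, mul_comm]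
                exact mul_le_mul' (h3 R z hR0) le_rfl
            _ = ENNReal.ofReal C3 * ∫⁻ z, ‖𝓕⁻ (g θ) z‖ₑ ^ 2 := lintegral_const_mul' _ _ ENNReal.ofReal_ne_top
            _ ≤ _ := mul_le_mul' le_rfl (planch_le (hD.int θ))
        · intro m
          have hc : Continuous (fun z : V3 => ((1 + ‖z - xm R m‖ / R) ^ 6)⁻¹) := by
            apply Continuous.inv₀
            · fun_prop
            · intro z; positivity
          exact (((hcont θ).measurable.enorm.pow_const 2).mul hc.measurable.ennreal_ofReal).aemeasurable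
    _ = _ := by
        rw [← Finset.mul_sum, ← mul_assoc, ← ENNReal.ofReal_mul hB0]
        congr 2
        rw [hB]
        ring

end Vale.Agent.P117.F837
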