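import Vale.Agent.P117.F837.Defs
import Vale.Agent.P117.K.MainD

/-! # P117 / F837 : the localised estimate at exponent three -/

open MeasureTheory Complex Set
open scoped ENNReal NNReal ContDiff FourierTransform SchwartzMap

set_option linter.all false

namespace Vale.Agent.P117.F837

open Vale.Agent.P117.K Vale.Agent.P117.K.Asm

/-- the estimate at the scales `R ∈ [N², B N²]`, `N = K0 ^ n` -/
theorem big3 (hE : StE3) (hKIN : StKIN3) {ε : ℝ} (hε : 0 < ε) :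
    ∃ (K0 : ℕ) (c1 : ℝ), 2 ≤ K0 ∧ 0 < c1 ∧ c1 ≤ 1 / 100 ∧ ∀ (B : ℝ) (φ : ℝ → ℂ) (χ : E3 → ℂ), 1 ≤ B →
      Prf c1 φ → Cut c1 χ → ∃ C : ℝ, 0 ≤ C ∧ ∀ (n : ℕ) (R : ℝ) (h : E3 → ℂ), 2 ≤ n → ((K0 ^ n : ℕ):ℝ) ^ 2 ≤ R →
      R ≤ B * ((K0 ^ n : ℕ):ℝ) ^ 2 → Ad1 h →
      ∫⁻ x, ‖SR φ χ R h x‖ₑ ^ (3:ℝ) ≤ ENNReal.ofReal (C * ((K0 ^ n : ℕ):ℝ) ^ (2 * ε)) * ∫⁻ y, ‖h y‖ₑ ^ 2 := by
  obtain ⟨M0, hK'⟩ := hKIN ε hε
  obtain ⟨M, K0, ca, CE, hM, hK0, hca, hCE, hE'⟩ := hE ε M0 hε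
  set c1 : ℝ := min ca (1/100) with hc1
  have hc1p : 0 < c1 := lt_min hca (by norm_num)
  have hc1a : c1 ≤ ca := min_le_left _ _
  have hc1d : c1 ≤ 1 / 100 := min_le_right _ _
  refine ⟨K0, c1, hK0, hc1p, hc1d, ?_⟩
  intro B φ χ hB hφ hχ
  obtain ⟨CK, hCK, hK''⟩ := hK' M B c1 φ χ hM hB hc1p hc1d hφ hχ
  refine ⟨4 ^ (3:ℝ) * (4 * (CE * CK ^ (1/2 : ℝ) * CK)), by positivity, ?_⟩
  intro n R h hn hNR hRN hh
  set N : ℕ := K0 ^ n with hNdef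
  have hN4 : 4 ≤ N := by
    calc 4 = 2 ^ 2 := by norm_num
      _ ≤ 2 ^ n := Nat.pow_le_pow_right (by norm_num) hn
      _ ≤ K0 ^ n := Nat.pow_le_pow_left hK0 n
  have hNr : (4:ℝ) ≤ N := by exact_mod_cast hN4
  have hN1 : (1:ℝ) ≤ N := by linarith
  obtain ⟨g, hg1, hg2, hg3, hg4, hg5⟩ := hK'' N R h hN4 hNR hRN hh
  have hAN : 1 ≤ CK * (N:ℝ) ^ ε := by
    have : 1 ≤ (N:ℝ) ^ ε := Real.one_le_rpow hN1 hε.le
    nlinarith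
  -- one shift
  have key : ∀ o : Fin 2 × Fin 2, ∫⁻ x, ‖𝓕⁻ (g o) x‖ₑ ^ (3:ℝ) ≤
      ENNReal.ofReal (CE * CK ^ (1/2 : ℝ) * CK * (N:ℝ) ^ (2 * ε)) * ∫⁻ y, ‖h y‖ₑ ^ 2 := by
    intro o
    have ho : ∀ j : Fin 2, ((j.val:ℝ) / 2) ∈ Icc (0:ℝ) (1/2) := by
      intro j
      fin_cases j <;> simp
    have h1 := hE' n ((o.1.val:ℝ) / 2) ((o.2.val:ℝ) / 2) (CK * (N:ℝ) ^ ε) (g o) hn (ho o.1) (ho o.2)
      (Ams_mono hc1a (hg1 o)) hAN (hg5 o)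
    have h2 : ∫⁻ x, ‖𝓕⁻ (g o) x‖ₑ ^ (3:ℝ) = ∫⁻ x, ‖𝓕⁻ (g o) x‖ₑ ^ 3 := by
      refine lintegral_congr fun x => ?_
      norm_cast
    rw [h2]
    refine h1.trans ?_
    calc ENNReal.ofReal (CE * ((K0:ℝ) ^ n) ^ ε * (CK * (N:ℝ) ^ ε) ^ (1/2 : ℝ)) * ∫⁻ ξ, ‖g o ξ‖ₑ ^ 2
        ≤ ENNReal.ofReal (CE * ((K0:ℝ) ^ n) ^ ε * (CK * (N:ℝ) ^ ε) ^ (1/2 : ℝ)) *
          (ENNReal.ofReal CK * ∫⁻ y, ‖h y‖ₑ ^ 2) := by gcongr; exact hg3 o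
      _ = ENNReal.ofReal (CE * ((K0:ℝ) ^ n) ^ ε * (CK * (N:ℝ) ^ ε) ^ (1/2 : ℝ) * CK) * ∫⁻ y, ‖h y‖ₑ ^ 2 := by
          rw [← mul_assoc, ← ENNReal.ofReal_mul (by positivity)]
      _ ≤ _ := by
          refine mul_le_mul' (ENNReal.ofReal_le_ofReal ?_) le_rfl
          have e1 : ((K0:ℝ) ^ n) = (N:ℝ) := by rw [hNdef]; push_cast; ring
          have e2 : (CK * (N:ℝ) ^ ε) ^ (1/2 : ℝ) = CK ^ (1/2 : ℝ) * ((N:ℝ) ^ ε) ^ (1/2 : ℝ) :=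
            Real.mul_rpow (by linarith) (by positivity)
          have e3 : ((N:ℝ) ^ ε) ^ (1/2 : ℝ) ≤ (N:ℝ) ^ ε := by
            have h1 : 1 ≤ (N:ℝ) ^ ε := Real.one_le_rpow hN1 hε.le
            calc ((N:ℝ) ^ ε) ^ (1/2 : ℝ) ≤ ((N:ℝ) ^ ε) ^ (1 : ℝ) := Real.rpow_le_rpow_of_exponent_le h1 (by norm_num)
              _ = _ := Real.rpow_one _
          have e4 : (N:ℝ) ^ (2 * ε) = (N:ℝ) ^ ε * (N:ℝ) ^ ε := by
            rw [← Real.rpow_add (by linarith)]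
            congr 1; ring
          rw [e1, e2, e4]
          have : 0 ≤ CK ^ (1/2 : ℝ) := by positivity
          have hp : 0 ≤ (N:ℝ) ^ ε := by positivity
          calc CE * (N:ℝ) ^ ε * (CK ^ (1/2 : ℝ) * ((N:ℝ) ^ ε) ^ (1/2 : ℝ)) * CK
              ≤ CE * (N:ℝ) ^ ε * (CK ^ (1/2 : ℝ) * (N:ℝ) ^ ε) * CK := by gcongr
            _ = _ := by ring
  -- sum over the shifts
  calc ∫⁻ x, ‖SR φ χ R h x‖ₑ ^ (3:ℝ) ≤ ∫⁻ x, 4 ^ (3:ℝ) * ∑ o, ‖𝓕⁻ (g o) x‖ₑ ^ (3:ℝ) := by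
        refine lintegral_mono fun x => ?_
        refine le_trans (ENNReal.rpow_le_rpow ?_ (by norm_num)) (sum4_pow (by norm_num) _)
        have h9 := hg2 x
        calc ‖SR φ χ R h x‖ₑ = ENNReal.ofReal ‖SR φ χ R h x‖ := (ofReal_norm_eq_enorm _).symm
          _ ≤ ENNReal.ofReal (∑ o, ‖𝓕⁻ (g o) x‖) := ENNReal.ofReal_le_ofReal h9
          _ = ∑ o, ENNReal.ofReal ‖𝓕⁻ (g o) x‖ := ENNReal.ofReal_sum_of_nonneg fun _ _ => norm_nonneg _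
          _ = _ := Finset.sum_congr rfl fun o _ => ofReal_norm_eq_enorm _
    _ = 4 ^ (3:ℝ) * ∑ o, ∫⁻ x, ‖𝓕⁻ (g o) x‖ₑ ^ (3:ℝ) := by
        rw [lintegral_const_mul' _ _ (by simp), lintegral_finset_sum']
        intro o _
        exact ((cont_finv (hg1 o).int).measurable.enorm.pow_const _).aemeasurable
    _ ≤ 4 ^ (3:ℝ) * ∑ o : Fin 2 × Fin 2, ENNReal.ofReal (CE * CK ^ (1/2 : ℝ) * CK * (N:ℝ) ^ (2 * ε)) * ∫⁻ y, ‖h y‖ₑ ^ 2 := by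
        gcongr with o _
        exact key o
    _ = _ := by
        rw [Finset.sum_const, nsmul_eq_mul]
        have e4 : (4:ℝ≥0∞) ^ (3:ℝ) = ENNReal.ofReal (4 ^ (3:ℝ)) := by
          rw [← ENNReal.ofReal_rpow_of_pos (by norm_num)]
          simp
        rw [e4]
        simp only [Finset.card_univ, Fintype.card_prod, Fintype.card_fin]
        rw [← ENNReal.ofReal_natCast, ← mul_assoc, ← mul_assoc, ← ENNReal.ofReal_mul (by positivity),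
          ← ENNReal.ofReal_mul (by positivity)]
        congr 2
        push_cast
        ring

/-- the localised estimate at exponent three -/
theorem brb3 (hE : StE3) (hKIN : StKIN3) (hSUP : StSUP3) : StBRb 3 0 := by
  intro ε hε
  obtain ⟨K0, c1, hK0, hc1, hc1', hbig⟩ := big3 hE hKIN (ε := ε) hε
  refine ⟨c1, hc1, ?_⟩
  intro φ χ hφ hχ
  have hK0r : (2:ℝ) ≤ K0 := by exact_mod_cast hK0
  obtain ⟨CA, hCA, hA⟩ := hbig ((K0:ℝ) ^ 2) φ χ (by nlinarith) hφ hχ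
  obtain ⟨CB, hCB, hB⟩ := small_scales hSUP (p := 3) (by norm_num) hc1 hc1' ((K0:ℝ) ^ 4) (one_le_pow₀ (by linarith)) hφ hχ
  refine ⟨CA + CB, by positivity, ?_⟩
  intro R h hR hh
  have hexp : 0 ≤ 0 + ε := by linarith
  by_cases hRs : R ≤ (K0:ℝ) ^ 4
  · refine (hB R h hR hRs hh).trans ?_
    gcongr
    have h1 : 1 ≤ R ^ (0 + ε) := Real.one_le_rpow hR hexp
    nlinarith
  · push Not at hRs
    obtain ⟨n, hn1, hn2⟩ := pow_bracket hK0 hR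
    have hn : 2 ≤ n := by
      by_contra hcon
      have hn' : n ≤ 1 := by omega
      have h3 : ((K0 ^ n : ℕ):ℝ) ≤ K0 := by
        have : K0 ^ n ≤ K0 ^ 1 := Nat.pow_le_pow_right (by omega) hn'
        rw [pow_one] at this
        exact_mod_cast this
      have h4 : (0:ℝ) ≤ ((K0 ^ n : ℕ):ℝ) := by positivity
      have h5 : (K0:ℝ) ^ 2 * ((K0 ^ n : ℕ):ℝ) ^ 2 ≤ (K0:ℝ) ^ 2 * (K0:ℝ) ^ 2 := by gcongr
      have h6 : (K0:ℝ) ^ 2 * (K0:ℝ) ^ 2 = (K0:ℝ) ^ 4 := by ring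
      linarith
    refine (hA n R h hn hn1 hn2 hh).trans ?_
    refine mul_le_mul' (ENNReal.ofReal_le_ofReal ?_) le_rfl
    have h7 : ((K0 ^ n : ℕ):ℝ) ^ (2 * ε) ≤ R ^ (0 + ε) := by
      have h8 : ((K0 ^ n : ℕ):ℝ) ^ (2 * ε) = (((K0 ^ n : ℕ):ℝ) ^ 2) ^ (0 + ε) := by
        rw [← Real.rpow_natCast (((K0 ^ n : ℕ):ℝ)) 2, ← Real.rpow_mul (by positivity)]
        congr 1
        push_cast
        ring
      rw [h8]
      exact Real.rpow_le_rpow (by positivity) hn1 hexp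
    have h9 : 0 ≤ ((K0 ^ n : ℕ):ℝ) ^ (2 * ε) := by positivity
    have h10 : 0 ≤ R ^ (0 + ε) := by positivity
    calc CA * ((K0 ^ n : ℕ):ℝ) ^ (2 * ε) ≤ CA * R ^ (0 + ε) := by gcongr
      _ ≤ _ := by nlinarith

end Vale.Agent.P117.F837
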