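import Vale.Agent.P117.F837.Defs
import Vale.Agent.P117.K.KinS
import Vale.Agent.P117.K.RstE
import Vale.Agent.P117.KC.Loc3

/-! # P117 / F837 : the sharp pointwise bound of the localised operator -/

open MeasureTheory Complex Set
open scoped ENNReal NNReal ContDiff FourierTransform SchwartzMap

set_option linter.all false

namespace Vale.Agent.P117.F837

open Vale.Agent.P117.K

theorem dat_shift {c1 : ℝ} {φ : ℝ → ℂ} {χ : E3 → ℂ} (hc0 : 0 < c1) (hc1 : c1 ≤ 1/100) (hφ : Prf c1 φ) (hχ : Cut c1 χ)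
    (o : Fin 2 × Fin 2) : Dat c1 φ χ (o.1.val / 2) (o.2.val / 2) := by
  have h : ∀ i : Fin 2, (0:ℝ) ≤ (i.val : ℝ) / 2 ∧ (i.val : ℝ) / 2 ≤ 1/2 := by
    intro i
    have h1 : (i.val : ℝ) ≤ 1 := by exact_mod_cast Nat.lt_succ_iff.1 i.isLt
    constructor
    · positivity
    · linarith
  exact ⟨hc0, hc1, hφ, hχ, (h _).1, (h _).2, (h _).1, (h _).2⟩

/-- the operator at scale `R` is bounded by `C R` on functions bounded by one -/
theorem SR_sup {c1 : ℝ} {φ : ℝ → ℂ} {χ : E3 → ℂ} (hc0 : 0 < c1) (hc1 : c1 ≤ 1/100) (hφ : Prf c1 φ) (hχ : Cut c1 χ) :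
    ∃ C : ℝ, 0 ≤ C ∧ ∀ (R : ℝ) (h : E3 → ℂ), 1 ≤ R → Ad1 h → ∀ x, ‖SR φ χ R h x‖ ≤ C * R := by
  have hD := dat_shift hc0 hc1 hφ hχ
  have hP := fun o => piece_sup (hD o) 4
  choose C1 hC1 hP using hP
  obtain ⟨C2, a, hC2, ha, hS⟩ := Vale.Agent.P117.Rst.stSUP3 c1 φ χ hc0 hc1 hφ hχ
  have s1 : 0 ≤ ∑ o, C1 o := Finset.sum_nonneg fun o _ => hC1 o
  refine ⟨∑ o, C1 o + C2 * 16 ^ a, by positivity, ?_⟩
  intro R h hR hh x
  have hR0 : 0 < R := by linarith
  rcases le_total R 16 with h16 | h16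
  · have h1 := (hS R h hR hh).1 x
    refine h1.trans ?_
    have h2 : R ^ a ≤ 16 ^ a := Real.rpow_le_rpow (by linarith) h16 ha
    have h3 : 0 ≤ C2 * (16:ℝ) ^ a := by positivity
    calc C2 * R ^ a ≤ C2 * 16 ^ a := by gcongr
      _ = C2 * 16 ^ a * 1 := (mul_one _).symm
      _ ≤ C2 * 16 ^ a * R := by gcongr
      _ ≤ _ := by nlinarith
  · set N : ℕ := ⌊Real.sqrt R⌋₊ with hN
    have hs4 : 4 ≤ Real.sqrt R := by
      rw [show (4:ℝ) = Real.sqrt 16 by rw [show (16:ℝ) = 4 ^ 2 by norm_num, Real.sqrt_sq (by norm_num)]]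
      exact Real.sqrt_le_sqrt h16
    have hN4 : 4 ≤ N := Nat.le_floor (by exact_mod_cast hs4)
    have hNr : (4:ℝ) ≤ N := by exact_mod_cast hN4
    have hNs : (N:ℝ) ≤ Real.sqrt R := Nat.floor_le (Real.sqrt_nonneg _)
    have hNs' : Real.sqrt R < N + 1 := Nat.lt_floor_add_one _
    have hsq : Real.sqrt R ^ 2 = R := Real.sq_sqrt hR0.le
    have hNR : (N:ℝ) ^ 2 ≤ R := by rw [← hsq]; gcongr
    have hRN : R ≤ 4 * (N:ℝ) ^ 2 := by
      rw [← hsq]
      have : Real.sqrt R ≤ 2 * N := by linarith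
      calc Real.sqrt R ^ 2 ≤ (2 * (N:ℝ)) ^ 2 := by gcongr
        _ = _ := by ring
    have hN1 : 1 ≤ N := by omega
    have ho : ∀ i : Fin 2, ((i.val : ℝ) / 2) ∈ Icc (0:ℝ) (1/2) := by
      intro i
      fin_cases i <;> simp
    rw [SR_dec hφ hχ N R hh.int x]
    have key : ∀ o : Fin 2 × Fin 2, ‖𝓕⁻ (gO φ χ N R (o.1.val / 2) (o.2.val / 2) h) x‖ ≤ C1 o * R := by
      intro o
      have hA := ams_gO (hD o) hN1 hNR hh
      rw [Vale.Agent.P117.KC.inv_sum hN4 (ho o.1) (ho o.2) hc1 hA.int hA.loc x]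
      refine (norm_sum_le _ _).trans ?_
      calc ∑ k ∈ grd N, ‖𝓕⁻ (pc N (o.1.val / 2) (o.2.val / 2) k (gO φ χ N R (o.1.val / 2) (o.2.val / 2) h)) x‖
          ≤ ∑ k ∈ grd N, C1 o := by
            refine Finset.sum_le_sum fun k _ => ?_
            rw [inv_pc_gO]
            have := hP o N R k h hN1 hNR hRN hh x
            rwa [← ofReal_norm, ENNReal.ofReal_le_ofReal_iff (hC1 o)] at this
        _ = (N:ℝ) ^ 2 * C1 o := by
            rw [Finset.sum_const, Vale.Agent.P117.KC.card_grd, nsmul_eq_mul]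
            push_cast
            ring
        _ ≤ C1 o * R := by
            have := hC1 o
            nlinarith
    refine (norm_sum_le _ _).trans ?_
    refine (Finset.sum_le_sum fun o _ => key o).trans ?_
    rw [← Finset.sum_mul]
    have h3 : 0 ≤ C2 * (16:ℝ) ^ a := by positivity
    gcongr
    linarith

end Vale.Agent.P117.F837
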