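import Vale.Agent.P117.F837.Brb
import Vale.Agent.P117.F837.Sup
import Vale.Agent.P117.K.TopK

/-! # P117 / F837 : from the localised estimate at exponent three to the full range -/

open MeasureTheory Complex Set Filter
open scoped ENNReal NNReal ContDiff FourierTransform SchwartzMap ComplexConjugate Topology

set_option linter.all false

namespace Vale.Agent.P117.F837

open Vale.Agent.P117.K
open Vale.Agent.P117.Top (LM Bd mpc TB_of_pieces mpc_int exists_partition exists_rot pfr contDiff_pfr pfr_supp)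
open Vale.Agent.P117 (Adm TB brm adm_sch fint_sch)

theorem Prf_mono {c c' : ℝ} (h : c ≤ c') {φ : ℝ → ℂ} (hφ : Prf c φ) : Prf c' φ :=
  ⟨hφ.smooth, fun u hu => (hφ.supp u hu).trans h⟩

theorem Cut_mono {c c' : ℝ} (h : c ≤ c') {χ : E3 → ℂ} (hχ : Cut c χ) : Cut c' χ :=
  ⟨hχ.smooth, fun u hu => (hχ.supp u hu).trans h⟩

/-- exponents above three -/
theorem brb_ge3 (h3 : StBRb 3 0) {p : ℝ} (hp : 3 ≤ p) : StBRb p (p - 3) := by
  intro ε hε
  obtain ⟨c1, hc1, h1⟩ := h3 ε hε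
  refine ⟨min c1 (1/100), lt_min hc1 (by norm_num), ?_⟩
  intro φ χ hφ hχ
  obtain ⟨C, hC, h2⟩ := h1 φ χ (Prf_mono (min_le_left _ _) hφ) (Cut_mono (min_le_left _ _) hχ)
  obtain ⟨S, hS, hsup⟩ := SR_sup (lt_min hc1 (by norm_num)) (min_le_right _ _) hφ hχ
  refine ⟨S ^ (p - 3) * C, by positivity, ?_⟩
  intro R h hR hh
  have hR0 : 0 < R := by linarith
  have hb : ∀ x, ‖SR φ χ R h x‖ₑ ≤ ENNReal.ofReal (S * R) := by
    intro x
    rw [← ofReal_norm]
    exact ENNReal.ofReal_le_ofReal (hsup R h hR hh x)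
  calc ∫⁻ x, ‖SR φ χ R h x‖ₑ ^ p ≤ ∫⁻ x, ENNReal.ofReal ((S * R) ^ (p - 3)) * ‖SR φ χ R h x‖ₑ ^ (3:ℝ) := by
        refine lintegral_mono fun x => ?_
        calc ‖SR φ χ R h x‖ₑ ^ p = ‖SR φ χ R h x‖ₑ ^ (p - 3) * ‖SR φ χ R h x‖ₑ ^ (3:ℝ) := by
              rw [← ENNReal.rpow_add_of_nonneg _ _ (by linarith) (by norm_num)]
              congr 1; ring
          _ ≤ (ENNReal.ofReal (S * R)) ^ (p - 3) * ‖SR φ χ R h x‖ₑ ^ (3:ℝ) :=
              mul_le_mul' (ENNReal.rpow_le_rpow (hb x) (by linarith)) le_rfl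
          _ = _ := by
              rw [ENNReal.ofReal_rpow_of_nonneg (by positivity) (by linarith)]
    _ = ENNReal.ofReal ((S * R) ^ (p - 3)) * ∫⁻ x, ‖SR φ χ R h x‖ₑ ^ (3:ℝ) := lintegral_const_mul' _ _ ENNReal.ofReal_ne_top
    _ ≤ ENNReal.ofReal ((S * R) ^ (p - 3)) * (ENNReal.ofReal (C * R ^ (0 + ε)) * ∫⁻ y, ‖h y‖ₑ ^ 2) := by
        gcongr
        exact h2 R h hR hh
    _ = _ := by
        rw [← mul_assoc, ← ENNReal.ofReal_mul (by positivity)]
        congr 2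
        rw [Real.mul_rpow hS hR0.le, Real.rpow_add hR0 (p - 3) ε, zero_add]
        ring

/-- strong type -/
theorem brp_ge3 (h3 : StBRb 3 0) {p : ℝ} (hp : 3 ≤ p) : StBRp p ((p - 3) / p) :=
  Vale.Agent.P117.Rst.stRST p (p - 3) (by linarith) (by linarith) (brb_ge3 h3 hp)

/-! ### `L^∞` -/

theorem SR_congr {φ : ℝ → ℂ} {χ : E3 → ℂ} {R : ℝ} {f g : E3 → ℂ} (h : f =ᵐ[volume] g) : SR φ χ R f = SR φ χ R g := by
  have h3 : (𝓕 f : E3 → ℂ) = 𝓕 g := by
    ext ξ
    rw [Real.fourier_eq, Real.fourier_eq]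
    apply integral_congr_ae
    filter_upwards [h] with y hy
    rw [hy]
  unfold SR
  rw [h3]

theorem SR_smul {φ : ℝ → ℂ} {χ : E3 → ℂ} {R : ℝ} (c : ℂ) (f : E3 → ℂ) : SR φ χ R (fun y => c * f y) = fun x => c * SR φ χ R f x := by
  have h3 : (𝓕 (fun y => c * f y) : E3 → ℂ) = fun ξ => c * 𝓕 f ξ := by
    ext ξ
    rw [Real.fourier_eq, Real.fourier_eq, ← integral_const_mul]
    congr 1
    ext v
    simp only [Circle.smul_def, smul_eq_mul]
    ring
  ext x
  unfold SR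
  rw [h3, Real.fourierInv_eq, Real.fourierInv_eq, ← integral_const_mul]
  congr 1
  ext ξ
  simp only [Circle.smul_def, smul_eq_mul]
  ring

theorem SR_sup_top {c1 : ℝ} {φ : ℝ → ℂ} {χ : E3 → ℂ} (hc0 : 0 < c1) (hc1 : c1 ≤ 1/100) (hφ : Prf c1 φ) (hχ : Cut c1 χ) :
    ∃ C : ℝ, 0 ≤ C ∧ ∀ (R : ℝ) (f : E3 → ℂ), 1 ≤ R → Adm volume f →
      eLpNorm (SR φ χ R f) ⊤ volume ≤ ENNReal.ofReal (C * R) * eLpNorm f ⊤ volume := by
  obtain ⟨C, hC, h0⟩ := SR_sup hc0 hc1 hφ hχ
  refine ⟨C, hC, ?_⟩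
  intro R f hR hf
  have hR0 : 0 < R := by linarith
  obtain ⟨B, hB⟩ := hf.bdd
  have hfin : eLpNorm f ⊤ volume ≠ ⊤ := by
    rw [eLpNorm_exponent_top]
    refine (lt_of_le_of_lt (eLpNormEssSup_le_of_ae_bound (C := B) (Eventually.of_forall hB)) ENNReal.ofReal_lt_top).ne
  set S : ℝ := (eLpNorm f ⊤ volume).toReal with hS
  have hS0 : 0 ≤ S := ENNReal.toReal_nonneg
  have hSe : eLpNorm f ⊤ volume = ENNReal.ofReal S := (ENNReal.ofReal_toReal hfin).symm
  have hae : ∀ᵐ x ∂(volume : Measure E3), ‖f x‖ ≤ S := by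
    have h1 := ae_le_eLpNormEssSup (f := f) (μ := (volume : Measure E3))
    filter_upwards [h1] with x hx
    rw [← eLpNorm_exponent_top, hSe, ← ofReal_norm, ENNReal.ofReal_le_ofReal_iff hS0] at hx
    exact hx
  set f' : E3 → ℂ := {x | ‖f x‖ ≤ S}.indicator f with hf'
  have hme : MeasurableSet {x | ‖f x‖ ≤ S} := measurableSet_le hf.meas.norm measurable_const
  have hff : f =ᵐ[volume] f' := by
    filter_upwards [hae] with x hx
    rw [hf', indicator_of_mem (show x ∈ {x | ‖f x‖ ≤ S} from hx)]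
  have hf'm : Measurable f' := hf.meas.indicator hme
  have hf'i : Integrable f' := hf.int.congr hff
  have hf'b : ∀ x, ‖f' x‖ ≤ S := by
    intro x
    by_cases hx : x ∈ {x | ‖f x‖ ≤ S}
    · rw [hf', indicator_of_mem hx]; exact hx
    · rw [hf', indicator_of_notMem hx, norm_zero]; exact hS0
  rw [SR_congr hff, hSe, ← ENNReal.ofReal_mul (by positivity), eLpNorm_exponent_top]
  apply eLpNormEssSup_le_of_ae_bound
  refine Eventually.of_forall fun x => ?_
  rcases hS0.eq_or_lt with h0' | h0'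
  · have : f' = fun _ => 0 := by
      ext y
      have := hf'b y
      rw [← h0'] at this
      exact norm_le_zero_iff.1 this
    rw [this]
    have e : SR φ χ R (fun _ : E3 => (0:ℂ)) x = 0 := by
      have := congrFun (SR_smul (φ := φ) (χ := χ) (R := R) 0 (fun _ : E3 => (0:ℂ))) x
      simpa using this
    rw [e, norm_zero]
    positivity
  · have hA : Ad1 (fun y => ((S⁻¹ : ℝ) : ℂ) * f' y) := by
      refine ⟨measurable_const.mul hf'm, hf'i.const_mul _, ?_⟩
      intro y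
      rw [norm_mul, Complex.norm_real, Real.norm_of_nonneg (by positivity)]
      calc S⁻¹ * ‖f' y‖ ≤ S⁻¹ * S := by gcongr; exact hf'b y
        _ = 1 := inv_mul_cancel₀ h0'.ne'
    have h1 := h0 R _ hR hA x
    rw [SR_smul] at h1
    simp only at h1
    rw [norm_mul, Complex.norm_real, Real.norm_of_nonneg (by positivity)] at h1
    have h2 : S * (S⁻¹ * ‖SR φ χ R f' x‖) ≤ S * (C * R) := by gcongr
    rw [← mul_assoc, mul_inv_cancel₀ h0'.ne', one_mul] at h2
    linarith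

/-- the pieces of the Bochner-Riesz symbol on `L^∞` -/
theorem pieces_top (δ : ℝ) :
    ∃ (c C : ℝ), 0 < c ∧ c ≤ 1 ∧ 0 ≤ C ∧ ∀ n : ℕ,
      Bd (mpc δ 4 c n) ⊤ (ENNReal.ofReal (C * ((4:ℝ) ^ n) ^ (1:ℝ))) := by
  obtain ⟨S, χ, hS1, hS2, hS3, hS4⟩ := exists_partition (1/100) (by norm_num)
  set c : ℝ := min (1/100) (min ((1/100) / 2) (1/2)) with hcdef
  have hc : 0 < c := lt_min (by norm_num) (lt_min (by norm_num) (by norm_num))
  have hcc : c ≤ 1/100 := min_le_left _ _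
  have hc2 : c ≤ min ((1/100) / 2) (1/2) := min_le_right _ _
  have hc1 : c ≤ 1 := hcc.trans (by norm_num)
  have hb : (1:ℝ) < 4 := by norm_num
  set b : ℝ := 4 with hbdef
  -- profile
  set φ : ℝ → ℂ := fun t => ((pfr δ b c (-t) : ℝ) : ℂ) with hφ
  have hφs : ContDiff ℝ ∞ φ := by
    have h1 : ContDiff ℝ ∞ (fun t : ℝ => pfr δ b c (-t)) := (contDiff_pfr hc hb.le).comp contDiff_neg
    exact Complex.ofRealCLM.contDiff.comp h1
  have hφsupp : ∀ t, φ t ≠ 0 → |t| ≤ c := by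
    intro t ht
    have h1 : pfr δ b c (-t) ≠ 0 := by
      intro h0; apply ht; simp only [hφ]; rw [h0, Complex.ofReal_zero]
    obtain ⟨h2, h3⟩ := pfr_supp hc hb.le h1
    rw [abs_of_neg (by linarith)]
    exact h3
  have hrot : ∀ w ∈ S, ∃ ρ : E3 ≃ₗᵢ[ℝ] E3, ρ xist = w := fun w hw => exists_rot (by rw [norm_xist, hS1 w hw])
  choose! ρ hρ using hrot
  have hpc : ∀ w ∈ S, ∃ C : ℝ, 0 ≤ C ∧ ∀ n : ℕ,
      Bd (fun ξ => φ (b ^ n * (‖ξ‖ ^ 2 - 1)) * ((χ w ξ : ℝ) : ℂ)) ⊤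
        (ENNReal.ofReal (C * b ^ n)) := by
    intro w hw
    have hs : ContDiff ℝ ∞ (fun ξ : E3 => ((χ w (ρ w ξ) : ℝ) : ℂ)) :=
      Complex.ofRealCLM.contDiff.comp ((hS2 w hw).comp (ρ w).contDiff)
    have hsup : ∀ ξ : E3, ((χ w (ρ w ξ) : ℝ) : ℂ) ≠ 0 → ‖ξ - xist‖ ≤ 1/100 := by
      intro ξ hξ
      have h1 : χ w (ρ w ξ) ≠ 0 := by
        intro h0; apply hξ; rw [h0, Complex.ofReal_zero]
      have h2 := hS3 w hw _ h1
      have h3 : ρ w ξ - w = ρ w (ξ - xist) := by rw [map_sub, hρ w hw]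
      rwa [h3, LinearIsometryEquiv.norm_map] at h2
    obtain ⟨C, hC, hb1⟩ := SR_sup_top (c1 := 1/100) (by norm_num) le_rfl (φ := φ) (χ := fun ξ : E3 => ((χ w (ρ w ξ) : ℝ) : ℂ))
      ⟨hφs, fun t ht => (hφsupp t ht).trans hcc⟩ ⟨hs, hsup⟩
    refine ⟨C, hC, fun n => ?_⟩
    apply Bd.isom (ρ w)
    intro f hf
    have e : ((fun ξ => φ (b ^ n * (‖ξ‖ ^ 2 - 1)) * ((χ w ξ : ℝ) : ℂ)) ∘ (ρ w)) =
        fun ξ => φ (b ^ n * (‖ξ‖ ^ 2 - 1)) * ((χ w (ρ w ξ) : ℝ) : ℂ) := by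
      ext ξ
      simp only [Function.comp_apply, LinearIsometryEquiv.norm_map]
    rw [e]
    exact hb1 (b ^ n) f (one_le_pow₀ hb.le) hf
  choose! Cw hCw hCb using hpc
  refine ⟨c, ∑ w ∈ S, Cw w, hc, hc1, Finset.sum_nonneg hCw, ?_⟩
  intro n
  have hint : ∀ w ∈ S, Integrable (fun ξ : E3 => φ (b ^ n * (‖ξ‖ ^ 2 - 1)) * ((χ w ξ : ℝ) : ℂ)) := by
    intro w hw
    have h1 : Continuous (fun ξ : E3 => ((χ w ξ : ℝ) : ℂ)) := Complex.continuous_ofReal.comp (hS2 w hw).continuous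
    have h2 : Continuous φ := hφs.continuous
    have h3 : Continuous (fun ξ : E3 => φ (b ^ n * (‖ξ‖ ^ 2 - 1)) * ((χ w ξ : ℝ) : ℂ)) := by fun_prop
    apply h3.integrable_of_hasCompactSupport
    apply HasCompactSupport.of_support_subset_isCompact (isCompact_closedBall w (1/100))
    intro ξ hξ
    rw [mem_closedBall_iff_norm]
    apply hS3 w hw
    intro h0
    apply hξ
    simp only
    rw [h0, Complex.ofReal_zero, mul_zero]
  have hsum := Bd.sum S hint (p := ⊤) (by simp) (fun w hw => hCb w hw n)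
  have e1 : mpc δ b c n = fun ξ => ∑ w ∈ S, φ (b ^ n * (‖ξ‖ ^ 2 - 1)) * ((χ w ξ : ℝ) : ℂ) := by
    ext ξ
    rw [← Finset.mul_sum, ← Complex.ofReal_sum]
    have e2 : φ (b ^ n * (‖ξ‖ ^ 2 - 1)) = mpc δ b c n ξ := by
      simp only [hφ, mpc]
      congr 2
      ring
    rw [e2]
    by_cases h0 : mpc δ b c n ξ = 0
    · rw [h0, zero_mul]
    · have h1 : |b ^ n * (‖ξ‖ ^ 2 - 1)| ≤ c := by
        apply hφsupp
        rw [e2]; exact h0
      have h2 : |‖ξ‖ ^ 2 - 1| ≤ c := by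
        rw [abs_mul, abs_of_pos (by positivity)] at h1
        have h3 : (1:ℝ) ≤ b ^ n := one_le_pow₀ hb.le
        have h4 := abs_nonneg (‖ξ‖ ^ 2 - 1)
        nlinarith
      rw [hS4 ξ (h2.trans hc2), Complex.ofReal_one, mul_one]
  rw [e1]
  refine hsum.mono (le_of_eq ?_)
  rw [← ENNReal.ofReal_sum_of_nonneg (fun w hw => mul_nonneg (hCw w hw) (by positivity)), ← Finset.sum_mul, Real.rpow_one]

/-- the end points: `δ > 1` suffices on `L^∞` -/
theorem top_inf {δ : ℝ} (hδ : 1 < δ) : ∃ C : ℝ, 0 ≤ C ∧ ∀ f : E3 → ℂ, Adm volume f → Integrable (𝓕 f) →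
      eLpNorm (TB δ f) ⊤ volume ≤ ENNReal.ofReal C * eLpNorm f ⊤ volume := by
  obtain ⟨c, C, hc, hc1, hC, hB⟩ := pieces_top δ
  exact TB_of_pieces (P := ⊤) (by simp) (by linarith) (by norm_num) hc hc1 hC hδ hB

/-- the end points: `δ > 1` suffices on `L^1` -/
theorem top_one {δ : ℝ} (hδ : 1 < δ) : ∃ C : ℝ, 0 ≤ C ∧ ∀ f : E3 → ℂ, Adm volume f → Integrable (𝓕 f) →
      eLpNorm (TB δ f) 1 volume ≤ ENNReal.ofReal C * eLpNorm f 1 volume := by
  obtain ⟨c, C, hc, hc1, hC, hB⟩ := pieces_top δ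
  exact TB_of_pieces (P := 1) le_rfl (by linarith) (by norm_num) hc hc1 hC hδ
    (fun n => Bd.dual (by simp) (by simp) (mpc_int hc (by norm_num) n) (by positivity) (hB n))

/-- **the full range** -/
theorem full_of_brb3 (h3 : StBRb 3 0) : StFull := by
  intro P δ hP hδ
  have hδ0 : 0 < δ := lt_of_le_of_lt (le_max_right _ _) hδ
  have hδ1 : 3 * |1 / P.toReal - 1 / 2| - 1 / 2 < δ := lt_of_le_of_lt (le_max_left _ _) hδ
  have ha : (1 / P).toReal = 1 / P.toReal := by rw [one_div, ENNReal.toReal_inv, one_div]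
  have h3p := brp_ge3 h3 le_rfl
  rw [sub_self, zero_div] at h3p
  rcases le_or_gt |1 / P.toReal - 1 / 2| (1 / 6) with h6 | h6
  · refine BRbdd_of_BRp (p0 := 3) (a0 := 0) (by norm_num) le_rfl h3p hP ?_ hδ0 ?_
    · rw [ha]; refine h6.trans (by norm_num)
    · rw [zero_mul]; exact hδ0
  · have ha0 : 0 ≤ 1 / P.toReal := by positivity
    have ha1 : 1 / P.toReal ≤ 1 := by
      by_cases hPt : P = ⊤
      · rw [hPt]; simp
      · have : 1 ≤ P.toReal := by
          rw [← ENNReal.toReal_one]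
          exact ENNReal.toReal_mono hPt hP
        rw [div_le_one (by linarith)]; exact this
    have hle : |1 / P.toReal - 1 / 2| ≤ 1 / 2 := by rw [abs_le]; constructor <;> linarith
    rcases hle.eq_or_lt with heq | hlt
    · rw [heq] at hδ1
      have hδ2 : 1 < δ := by linarith
      rcases abs_eq (by norm_num : (0:ℝ) ≤ 1 / 2) |>.1 heq with h1 | h1
      · have hP1 : P = 1 := by
          have h2 : 1 / P.toReal = 1 := by linarith
          have h4 : P.toReal = 1 := by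
            have : P.toReal ≠ 0 := by
              intro h0; rw [h0] at h2; norm_num at h2
            field_simp at h2
            exact h2.symm
          rwa [ENNReal.toReal_eq_one_iff] at h4
        obtain ⟨C, hC, h⟩ := top_one hδ2
        refine ⟨C.toNNReal, fun f => ?_⟩
        rw [bochnerRiesz_TB, hP1]
        exact h f (adm_sch f) (fint_sch f)
      · have hPt : P = ⊤ := by
          have h2 : 1 / P.toReal = 0 := by linarith
          have h4 : P.toReal = 0 := by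
            by_contra hne
            exact (one_div_ne_zero hne) h2
          rcases (ENNReal.toReal_eq_zero_iff _).1 h4 with h5 | h5
          · rw [h5] at hP; exact absurd hP (by norm_num)
          · exact h5
        obtain ⟨C, hC, h⟩ := top_inf hδ2
        refine ⟨C.toNNReal, fun f => ?_⟩
        rw [bochnerRiesz_TB, hPt]
        exact h f (adm_sch f) (fint_sch f)
    · set d := |1 / P.toReal - 1 / 2| with hd
      set p : ℝ := 1 / (1 / 2 - d) with hp
      have hd2 : 0 < 1 / 2 - d := by linarith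
      have hp3 : 3 ≤ p := by
        rw [hp, le_div_iff₀ hd2]; linarith
      have hinv : 1 / p = 1 / 2 - d := by rw [hp, one_div_one_div]
      have hp0 : 0 < p := by linarith
      have hd0 : 0 < d := by linarith
      refine BRbdd_of_BRp (p0 := p) (a0 := (p - 3) / p) (by linarith) (by
        apply div_nonneg <;> linarith) (brp_ge3 h3 hp3) hP ?_ hδ0 ?_
      · rw [ha, hinv]; linarith
      · rw [ha, ← hd, hinv]
        have e : (p - 3) / p = 1 - 3 * (1 / p) := by field_simp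
        rw [e, hinv, sub_sub_cancel, div_self hd0.ne', mul_one]
        linarith

/-- **P117 from the multiscale estimate at exponent three** -/
theorem full_of_E3 (hE : StE3) : StFull :=
  full_of_brb3 (brb3 hE stKIN3 Vale.Agent.P117.Rst.stSUP3)

end Vale.Agent.P117.F837
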