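import Mathlib

/-! # P117 / F837 : lattice sums and the covering of space by cubes -/

open MeasureTheory Complex Set
open scoped ENNReal NNReal FourierTransform

set_option linter.all false

namespace Vale.Agent.P117.F837

/-- one-dimensional sum -/
theorem sum1 : ∃ C : ℝ, 0 ≤ C ∧ ∀ t : ℝ, ∑' m : ℤ, ENNReal.ofReal (((1 + |t - 2 * m|) ^ 2)⁻¹) ≤ ENNReal.ofReal C := by
  have hs : Summable (fun n : ℤ => ((1 + |(n:ℝ)|) ^ 2)⁻¹) := by
    have h1 : Summable (fun n : ℕ => ((1 + |((n:ℤ):ℝ)|) ^ 2)⁻¹) := by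
      have h2 : Summable (fun n : ℕ => (((n:ℝ)) ^ 2)⁻¹) := Real.summable_nat_pow_inv.2 (by norm_num)
      have h3 := (summable_nat_add_iff 1).2 h2
      refine h3.congr fun n => ?_
      push_cast
      rw [abs_of_nonneg (by positivity)]
      ring_nf
    refine Summable.of_nat_of_neg h1 ?_
    refine h1.congr fun n => ?_
    push_cast
    rw [abs_neg]
  refine ⟨∑' n : ℤ, ((1 + |(n:ℝ)|) ^ 2)⁻¹, tsum_nonneg fun n => by positivity, ?_⟩
  intro t
  rw [ENNReal.ofReal_tsum_of_nonneg (fun n => by positivity) hs]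
  set m0 : ℤ := round (t / 2) with hm0
  rw [← (Equiv.addRight m0).tsum_eq (fun m : ℤ => ENNReal.ofReal (((1 + |t - 2 * m|) ^ 2)⁻¹))]
  refine ENNReal.tsum_le_tsum fun j => ENNReal.ofReal_le_ofReal ?_
  have h1 : |t / 2 - m0| ≤ 1 / 2 := abs_sub_round _
  have h2 : |t - 2 * m0| ≤ 1 := by
    have e : t - 2 * m0 = 2 * (t / 2 - m0) := by ring
    rw [e, abs_mul, abs_of_pos (by norm_num : (0:ℝ) < 2)]
    linarith
  have h3 : |(j:ℝ)| ≤ |t - 2 * ((j + m0 : ℤ) : ℝ)| := by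
    push_cast
    by_cases hj : j = 0
    · rw [hj]; simp
    · have h4 : (1:ℝ) ≤ |(j:ℝ)| := by
        have : 1 ≤ |j| := Int.one_le_abs hj
        have h5 : ((1:ℤ):ℝ) ≤ ((|j| : ℤ) : ℝ) := by exact_mod_cast this
        simpa using h5
      have h5 : |2 * (j:ℝ)| ≤ |t - 2 * (j + m0)| + |t - 2 * m0| := by
        have e : 2 * (j:ℝ) = -(t - 2 * (j + m0)) + (t - 2 * m0) := by ring
        rw [e]
        refine (abs_add_le _ _).trans ?_
        rw [abs_neg]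
      rw [abs_mul, abs_of_pos (by norm_num : (0:ℝ) < 2)] at h5
      linarith
  have h6 : (Equiv.addRight m0) j = j + m0 := rfl
  rw [h6]
  gcongr

/-- the points of the lattice -/
noncomputable def xm (R : ℝ) (m : ℤ × ℤ × ℤ) : EuclideanSpace ℝ (Fin 3) := !₂[2 * R * m.1, 2 * R * m.2.1, 2 * R * m.2.2]

theorem xm0 (R : ℝ) (m : ℤ × ℤ × ℤ) : xm R m 0 = 2 * R * m.1 := rfl
theorem xm1 (R : ℝ) (m : ℤ × ℤ × ℤ) : xm R m 1 = 2 * R * m.2.1 := rfl
theorem xm2 (R : ℝ) (m : ℤ × ℤ × ℤ) : xm R m 2 = 2 * R * m.2.2 := rfl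

/-- three-dimensional sum -/
theorem sum3 : ∃ C : ℝ, 0 ≤ C ∧ ∀ (R : ℝ) (z : EuclideanSpace ℝ (Fin 3)), 0 < R →
    ∑' m : ℤ × ℤ × ℤ, ENNReal.ofReal (((1 + ‖z - xm R m‖ / R) ^ 6)⁻¹) ≤ ENNReal.ofReal C := by
  obtain ⟨C, hC, h⟩ := sum1
  refine ⟨C * (C * C), by positivity, ?_⟩
  intro R z hR
  have key : ∀ m : ℤ × ℤ × ℤ, ENNReal.ofReal (((1 + ‖z - xm R m‖ / R) ^ 6)⁻¹) ≤
      ENNReal.ofReal (((1 + |z 0 / R - 2 * m.1|) ^ 2)⁻¹) * (ENNReal.ofReal (((1 + |z 1 / R - 2 * m.2.1|) ^ 2)⁻¹) *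
        ENNReal.ofReal (((1 + |z 2 / R - 2 * m.2.2|) ^ 2)⁻¹)) := by
    intro m
    rw [← ENNReal.ofReal_mul (by positivity), ← ENNReal.ofReal_mul (by positivity), ← mul_inv, ← mul_inv]
    apply ENNReal.ofReal_le_ofReal
    have hi : ∀ i : Fin 3, |(z - xm R m) i| ≤ ‖z - xm R m‖ := fun i => by
      have := PiLp.norm_apply_le (z - xm R m) i
      rwa [Real.norm_eq_abs] at this
    have hj : ∀ (i : Fin 3) (a : ℝ), (z - xm R m) i = z i - 2 * R * a → 1 + |z i / R - 2 * a| ≤ 1 + ‖z - xm R m‖ / R := by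
      intro i a hia
      have h1 := hi i
      rw [hia] at h1
      have e : z i / R - 2 * a = (z i - 2 * R * a) / R := by field_simp
      rw [e, abs_div, abs_of_pos hR]
      gcongr
    have g0 := hj 0 m.1 rfl
    have g1 := hj 1 m.2.1 rfl
    have g2 := hj 2 m.2.2 rfl
    set N := 1 + ‖z - xm R m‖ / R with hN
    have hN0 : 0 < N := by positivity
    have e : N ^ 6 = N ^ 2 * (N ^ 2 * N ^ 2) := by ring
    rw [e]
    gcongr
  calc ∑' m : ℤ × ℤ × ℤ, ENNReal.ofReal (((1 + ‖z - xm R m‖ / R) ^ 6)⁻¹)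
      ≤ ∑' m : ℤ × ℤ × ℤ, ENNReal.ofReal (((1 + |z 0 / R - 2 * m.1|) ^ 2)⁻¹) * (ENNReal.ofReal (((1 + |z 1 / R - 2 * m.2.1|) ^ 2)⁻¹) *
        ENNReal.ofReal (((1 + |z 2 / R - 2 * m.2.2|) ^ 2)⁻¹)) := ENNReal.tsum_le_tsum key
    _ = ∑' a : ℤ, ∑' b : ℤ, ∑' c : ℤ, ENNReal.ofReal (((1 + |z 0 / R - 2 * a|) ^ 2)⁻¹) * (ENNReal.ofReal (((1 + |z 1 / R - 2 * b|) ^ 2)⁻¹) *
        ENNReal.ofReal (((1 + |z 2 / R - 2 * c|) ^ 2)⁻¹)) := by
        rw [ENNReal.tsum_prod']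
        congr 1
        ext a
        rw [ENNReal.tsum_prod']
    _ = (∑' a : ℤ, ENNReal.ofReal (((1 + |z 0 / R - 2 * a|) ^ 2)⁻¹)) * ((∑' b : ℤ, ENNReal.ofReal (((1 + |z 1 / R - 2 * b|) ^ 2)⁻¹)) *
        ∑' c : ℤ, ENNReal.ofReal (((1 + |z 2 / R - 2 * c|) ^ 2)⁻¹)) := by
        simp_rw [ENNReal.tsum_mul_left, ENNReal.tsum_mul_right]
    _ ≤ ENNReal.ofReal C * (ENNReal.ofReal C * ENNReal.ofReal C) := by
        gcongr
        · exact h _
        · exact h _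
        · exact h _
    _ = _ := by rw [← ENNReal.ofReal_mul hC, ← ENNReal.ofReal_mul hC]

/-- the cubes cover the space -/
theorem cover3 {R : ℝ} (hR : 0 < R) (G : EuclideanSpace ℝ (Fin 3) → ℝ≥0∞) :
    ∫⁻ z, G z ≤ ∑' m : ℤ × ℤ × ℤ, ∫⁻ z in {z : EuclideanSpace ℝ (Fin 3) | ∀ i, |z i| ≤ R}, G (z + xm R m) := by
  set S : ℤ × ℤ × ℤ → Set (EuclideanSpace ℝ (Fin 3)) := fun m => {z | ∀ i, |(z - xm R m) i| ≤ R} with hS
  have hcov : (⋃ m, S m) = univ := by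
    rw [eq_univ_iff_forall]
    intro z
    rw [mem_iUnion]
    refine ⟨(round (z 0 / (2 * R)), round (z 1 / (2 * R)), round (z 2 / (2 * R))), ?_⟩
    have key : ∀ x : ℝ, |x - 2 * R * (round (x / (2 * R)) : ℤ)| ≤ R := by
      intro x
      have h1 := abs_sub_round (x / (2 * R))
      have e : x - 2 * R * (round (x / (2 * R)) : ℤ) = 2 * R * (x / (2 * R) - (round (x / (2 * R)) : ℤ)) := by
        field_simp
      rw [e, abs_mul, abs_of_pos (by positivity)]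
      calc 2 * R * |x / (2 * R) - (round (x / (2 * R)) : ℤ)| ≤ 2 * R * (1 / 2) := by gcongr
        _ = R := by ring
    intro i
    fin_cases i
    · exact key (z 0)
    · exact key (z 1)
    · exact key (z 2)
  have hme : ∀ x0 : EuclideanSpace ℝ (Fin 3), MeasurableSet {z : EuclideanSpace ℝ (Fin 3) | ∀ i, |(z - x0) i| ≤ R} := by
    intro x0
    have : {z : EuclideanSpace ℝ (Fin 3) | ∀ i, |(z - x0) i| ≤ R} = ⋂ i, {z : EuclideanSpace ℝ (Fin 3) | |(z - x0) i| ≤ R} := by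
      ext z; simp
    rw [this]
    refine MeasurableSet.iInter fun i => ?_
    apply measurableSet_le
    · have : Measurable (fun z : EuclideanSpace ℝ (Fin 3) => (z - x0) i) := by fun_prop
      exact this.abs
    · exact measurable_const
  calc ∫⁻ z, G z = ∫⁻ z in ⋃ m, S m, G z := by rw [hcov, Measure.restrict_univ]
    _ ≤ ∑' m, ∫⁻ z in S m, G z := lintegral_iUnion_le _ _
    _ = _ := by
        congr 1
        ext m
        rw [← lintegral_indicator (hme (xm R m))]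
        have h0 : MeasurableSet {z : EuclideanSpace ℝ (Fin 3) | ∀ i, |z i| ≤ R} := by simpa using hme 0
        rw [← lintegral_indicator h0, ← lintegral_add_right_eq_self _ (xm R m)]
        congr 1
        ext z
        by_cases hz : ∀ i, |z i| ≤ R
        · rw [indicator_of_mem (show z ∈ {z : EuclideanSpace ℝ (Fin 3) | ∀ i, |z i| ≤ R} from hz), indicator_of_mem]
          simpa [hS] using hz
        · rw [indicator_of_notMem (show z ∉ {z : EuclideanSpace ℝ (Fin 3) | ∀ i, |z i| ≤ R} from hz), indicator_of_notMem]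
          simpa [hS] using hz

end Vale.Agent.P117.F837
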